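import Mathlib
import Vale.Agent.Lib.P174.Defs
import Vale.Agent.Lib.P174.LIDef
import Vale.Agent.Lib.P174.AbelianByLI

namespace Vale.Agent.Results.P174.AbelianByLocallyIndicable

open Vale.Agent.Lib.P174

/-- If `A` is a normal subgroup of `G` whose elements commute with each other and the quotient
`G ⧸ A` is locally indicable, then every nonsingular finite system of equations over `G` is
solvable over `G`. -/
theorem result (G : Type*) [Group G] (A : Subgroup G) [A.Normal]
    (hA : ∀ a ∈ A, ∀ b ∈ A, a * b = b * a) (hQ : LocallyIndicable (G ⧸ A)) :
    HowieProperty G :=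
  howie_of_abelian_by_locallyIndicable A hA hQ

end Vale.Agent.Results.P174.AbelianByLocallyIndicable
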