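import Mathlib
import Vale.Agent.Lib.P174.Defs
import Vale.Agent.Lib.P174.LIDef
import Vale.Agent.Lib.P174.Final

namespace Vale.Agent.Results.P174.ExtByLocallyIndicable

open Vale.Agent.Lib.P174

/-- If `N` is a normal subgroup of `G` with locally indicable quotient `G ⧸ N` and every
nonsingular finite system of equations over `N` is solvable over `N`, then every nonsingular
finite system of equations over `G` is solvable over `G`. -/
theorem result (G : Type*) [Group G] (N : Subgroup G) [N.Normal]
    (hQ : LocallyIndicable (G ⧸ N)) (hN : HowieProperty N) : HowieProperty G :=
  howie_of_locallyIndicable_quotient N hQ hN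

end Vale.Agent.Results.P174.ExtByLocallyIndicable
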