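import Mathlib
import Vale.Agent.Lib.P174.Defs
import Vale.Agent.Lib.P174.Main

namespace Vale.Agent.Results.P174.ExtByQVectorSpace

open Vale.Agent.Lib.P174

/-- If `ψ` is a homomorphism from a group `G` to the additive group of a rational vector space
and every nonsingular finite system of equations over `ker ψ` is solvable over `ker ψ`, then
every nonsingular finite system of equations over `G` is solvable over `G`. -/
theorem result (G : Type*) [Group G] (V : Type*) [AddCommGroup V] [Module ℚ V]
    (ψ : G →* Multiplicative V) (hN : HowieProperty ψ.ker) : HowieProperty G :=
  howie_of_ker ψ hN

end Vale.Agent.Results.P174.ExtByQVectorSpace
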