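import Mathlib
import Vale.Agent.Lib.P174.Defs
import Vale.Agent.Lib.P174.Final

namespace Vale.Agent.Results.P174.LocalCriterion

open Vale.Agent.Lib.P174

/-- If every nonsingular finite system of equations over `H` is solvable over `H` for each
finitely generated subgroup `H` of `G` that has no nontrivial homomorphism to the integers, then
every nonsingular finite system of equations over `G` is solvable over `G`. -/
theorem result (G : Type*) [Group G]
    (h : ∀ H : Subgroup G, H.FG → (∀ f : H →* Multiplicative ℤ, f = 1) → HowieProperty H) :
    HowieProperty G :=
  howie_of_local' h

end Vale.Agent.Results.P174.LocalCriterion
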